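import Mathlib

/-! P032 part C, finite checks on graphs with five vertices. -/

namespace Vale.Agent.P032

set_option synthInstance.maxSize 4000
set_option synthInstance.maxHeartbeats 200000

/-- symmetric loopless graph from ten bits -/
def gr (b0 b1 b2 b3 b4 b5 b6 b7 b8 b9 : Bool) (i j : Fin 5) : Bool :=
  match i.1, j.1 with
  | 0, 1 => b0 | 1, 0 => b0 | 0, 2 => b1 | 2, 0 => b1 | 0, 3 => b2 | 3, 0 => b2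
  | 0, 4 => b3 | 4, 0 => b3 | 1, 2 => b4 | 2, 1 => b4 | 1, 3 => b5 | 3, 1 => b5
  | 1, 4 => b6 | 4, 1 => b6 | 2, 3 => b7 | 3, 2 => b7 | 2, 4 => b8 | 4, 2 => b8
  | 3, 4 => b9 | 4, 3 => b9 | _, _ => false

/-- the graph as a relation -/
abbrev Eg (b0 b1 b2 b3 b4 b5 b6 b7 b8 b9 : Bool) (i j : Fin 5) : Prop :=
  gr b0 b1 b2 b3 b4 b5 b6 b7 b8 b9 i j = true

lemma gr_ex (E : Fin 5 → Fin 5 → Prop) (hs : ∀ i j, E i j → E j i) (hi : ∀ i, ¬ E i i) :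
    ∃ b0 b1 b2 b3 b4 b5 b6 b7 b8 b9,
      E = Eg b0 b1 b2 b3 b4 b5 b6 b7 b8 b9 := by
  classical
  refine ⟨decide (E 0 1), decide (E 0 2), decide (E 0 3), decide (E 0 4), decide (E 1 2),
    decide (E 1 3), decide (E 1 4), decide (E 2 3), decide (E 2 4), decide (E 3 4), ?_⟩
  funext i j
  fin_cases i <;> fin_cases j <;> simp [Eg, gr, hi] <;> exact ⟨hs _ _, hs _ _⟩

/-- triangle -/
abbrev Tri (E : Fin 5 → Fin 5 → Prop) : Prop := ∃ a b, E a b ∧ ∃ c, E b c ∧ E a c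

/-- complete bipartite graph with parts of size two and three -/
abbrev K23 (E : Fin 5 → Fin 5 → Prop) : Prop :=
  ∃ p q, p ≠ q ∧ ∀ i, i ≠ p → i ≠ q → E i p ∧ E i q

/-- `B` and `B'` are linked outside `a, b` -/
abbrev Lk (E : Fin 5 → Fin 5 → Prop) (B B' : Finset (Fin 5)) (a b : Fin 5) : Prop :=
  ∃ c ∈ B, ∃ c' ∈ B', c ≠ a ∧ c ≠ b ∧ c' ≠ a ∧ c' ≠ b ∧
    (c = c' ∨ E c c' ∨ ∃ e, e ≠ a ∧ e ≠ b ∧ E c e ∧ E e c')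

/-- `B` is a clique -/
abbrev In (E : Fin 5 → Fin 5 → Prop) (B : Finset (Fin 5)) : Prop :=
  ∀ c ∈ B, ∀ d ∈ B, c ≠ d → E c d

/-- admissible type -/
abbrev Ty (L : Finset (Finset (Fin 5))) (B : Finset (Fin 5)) : Prop :=
  B.Nonempty ∧ B.card ≤ 2 ∧ ∀ X ∈ L, ¬ B ⊆ X

/-- coarse type for the four-cycle -/
def k4 (B : Finset (Fin 5)) : ℕ := if 4 ∈ B then 0 else if 0 ∈ B then 1 else 2

lemma fifth : ∀ a b c j c' j' : Fin 5, a ≠ b → c ≠ a → c ≠ b → j ≠ a → j ≠ b → c ≠ j → c' ≠ a →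
    c' ≠ b → c ≠ c' → j ≠ c' → j' ≠ a → j' ≠ b → j' ≠ c → j' ≠ j → j' = c' := by decide +kernel

lemma ty3 : ∀ B, Ty {{0, 1}, {1, 2}, {0, 2}} B →
    B ∈ [{3}, {3, 0}, {3, 1}, {3, 2}, {4}, {4, 0}, {4, 1}, {4, 2}, {3, 4}] := by decide +kernel

lemma ty3' : ∀ B, Ty {{0, 1}, {1, 2}, {0, 2}} B → ∀ B', Ty {{0, 1}, {1, 2}, {0, 2}} B' →
    Disjoint B B' → B ≠ {3, 4} ∧ decide (3 ∈ B) ≠ decide (3 ∈ B') := by decide +kernel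

lemma ty3'' : ∀ B, Ty {{0, 1}, {1, 2}, {0, 2}} B → ¬ Disjoint {3, 4} B := by decide +kernel

lemma ty4 : ∀ B, Ty {{0, 1}, {1, 2}, {2, 3}, {3, 0}} B →
    B ∈ [{4}, {4, 0}, {4, 1}, {4, 2}, {4, 3}, {0, 2}, {1, 3}] := by decide +kernel

lemma ty4' : ∀ B, Ty {{0, 1}, {1, 2}, {2, 3}, {3, 0}} B → ∀ B',
    Ty {{0, 1}, {1, 2}, {2, 3}, {3, 0}} B' → Disjoint B B' → k4 B ≠ k4 B' := by decide +kernel

lemma ty5 : ∀ B, Ty {{0, 1}, {1, 2}, {2, 3}, {3, 4}, {4, 0}} B →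
    B ∈ [{0, 2}, {1, 3}, {2, 4}, {3, 0}, {4, 1}] := by decide +kernel

/-- triangle check -/
abbrev Ch3 (E : Fin 5 → Fin 5 → Prop) : Prop :=
    ¬ E 3 4 → ∀ B ∈ [{3}, {3, 0}, {3, 1}, {3, 2}, {4}, {4, 0}, {4, 1}, {4, 2}, {3, 4}], In E B →
    B ≠ {3, 4} → ∀ B' ∈ [{3}, {3, 0}, {3, 1}, {3, 2}, {4}, {4, 0}, {4, 1}, {4, 2}, {3, 4}],
    In E B' → B' ≠ {3, 4} → decide (3 ∈ B) ≠ decide (3 ∈ B') →
    Lk E B B' 0 1 → Lk E B B' 1 2 → Lk E B B' 0 2 → K23 E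

lemma ch3 : ∀ b0 b1 b2 b3 b4 b5 b6 b7 b8 b9, Ch3 (Eg b0 b1 b2 b3 b4 b5 b6 b7 b8 b9) := by
  decide +kernel

/-- four-cycle check -/
abbrev Ch4 (E : Fin 5 → Fin 5 → Prop) : Prop :=
    ¬ Tri E → ∀ B ∈ [{4}, {4, 0}, {4, 1}, {4, 2}, {4, 3}, {0, 2}, {1, 3}], In E B →
    ∀ B' ∈ [{4}, {4, 0}, {4, 1}, {4, 2}, {4, 3}, {0, 2}, {1, 3}], In E B' → k4 B ≠ k4 B' →
    Lk E B B' 0 1 → Lk E B B' 1 2 → Lk E B B' 2 3 → Lk E B B' 3 0 → K23 E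

lemma ch4 : ∀ b0 b1 b2 b3 b4 b5 b6 b7 b8 b9, Ch4 (Eg b0 b1 b2 b3 b4 b5 b6 b7 b8 b9) := by
  decide +kernel

/-- five-cycle check -/
abbrev Ch5 (E : Fin 5 → Fin 5 → Prop) : Prop :=
    ¬ Tri E → ∀ B ∈ [{0, 2}, {1, 3}, {2, 4}, {3, 0}, {4, 1}], In E B →
    ∀ B' ∈ [{0, 2}, {1, 3}, {2, 4}, {3, 0}, {4, 1}], In E B' → B ≠ B' →
    Lk E B B' 0 1 → Lk E B B' 1 2 → Lk E B B' 2 3 → Lk E B B' 3 4 → Lk E B B' 4 0 → K23 E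

lemma ch5 : ∀ b0 b1 b2 b3 b4 b5 b6 b7 b8 b9, Ch5 (Eg b0 b1 b2 b3 b4 b5 b6 b7 b8 b9) := by
  decide +kernel

lemma bij3 : ∀ a b c : Fin 5, a ≠ b → a ≠ c → b ≠ c →
    ∃ d e, Function.Injective ![a, b, c, d, e] := by decide +kernel

lemma bij4 : ∀ a b c d : Fin 5, a ≠ b → a ≠ c → b ≠ c → a ≠ d → b ≠ d → c ≠ d →
    ∃ e, Function.Injective ![a, b, c, d, e] := by decide +kernel

lemma bij2 : ∀ p q : Fin 5, p ≠ q → ∃ a b c, Function.Injective ![a, b, c, p, q] := by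
  decide +kernel

end Vale.Agent.P032
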